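import Vale.Agent.N085.Defs
import Vale.Agent.P085Z.Main
import Vale.Agent.P085Z.Bicomm

/-! Countably generated von Neumann algebras: cyclic subspaces, orthogonal families, summands. -/

set_option linter.all false

open scoped InnerProductSpace Topology Cardinal
open Filter TopologicalSpace

namespace Vale.Agent.N085

open Vale.Agent.P085 Vale.Agent.P085Z Vale.Agent.P085Z.Inf

universe u

variable {H : Type u} [NormedAddCommGroup H] [InnerProductSpace ℂ H] [CompleteSpace H]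
variable {M : VonNeumannAlgebra H} {A : StarSubalgebra ℂ (H →L[ℂ] H)}

/-- vector functionals -/
noncomputable def vf (A : StarSubalgebra ℂ (H →L[ℂ] H)) (q : H × H) : StrongDual ℂ A :=
  innerSL ℂ q.1 ∘L ContinuousLinearMap.apply ℂ H q.2 ∘L
    (Subalgebra.toSubmodule A.toSubalgebra).subtypeL

theorem vf_apply (a b : H) (x : A) : vf A (a, b) x = ⟪a, x.1 b⟫_ℂ := rfl

theorem vf_cont : Continuous (vf A) :=
  ((innerSL ℂ).continuous.comp continuous_fst).clm_comp
    (((ContinuousLinearMap.apply ℂ H).continuous.comp continuous_snd).clm_comp continuous_const)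

theorem vf_mem (W : Submodule ℂ (StrongDual ℂ A)) (a : H) {T : Set H}
    (h : ∀ b ∈ T, vf A (a, b) ∈ closure (W : Set (StrongDual ℂ A))) {b : H}
    (hb : b ∈ closure (Submodule.span ℂ T : Set H)) :
    vf A (a, b) ∈ closure (W : Set (StrongDual ℂ A)) := by
  let l : H →ₗ[ℂ] StrongDual ℂ A :=
    { toFun := fun b => vf A (a, b)
      map_add' := fun b c => ContinuousLinearMap.ext fun x => by
        rw [ContinuousLinearMap.add_apply, vf_apply, vf_apply, vf_apply, map_add, inner_add_right]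
      map_smul' := fun c b => ContinuousLinearMap.ext fun x => by
        rw [ContinuousLinearMap.smul_apply, vf_apply, vf_apply, map_smul, inner_smul_right]
        rfl }
  have h1 : Submodule.span ℂ T ≤ W.topologicalClosure.comap l := Submodule.span_le.2 h
  have h2 : IsClosed {b : H | vf A (a, b) ∈ closure (W : Set (StrongDual ℂ A))} :=
    isClosed_closure.preimage (vf_cont.comp (Continuous.prodMk_right a))
  exact h2.closure_subset_iff.2 (fun b hb => h1 hb) hb

/-- the vector functionals of `A z` -/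
def Vz (A : StarSubalgebra ℂ (H →L[ℂ] H)) (z : H →L[ℂ] H) : Set (StrongDual ℂ A) :=
  {f | ∃ ξ η : H, ∀ x : A, f x = ⟪ξ, (x : H →L[ℂ] H) (z η)⟫_ℂ}

theorem sepPredual_iff {z : H →L[ℂ] H} : SepPredual A z ↔ IsSeparable (Vz A z) :=
  ⟨fun h => h.1.mono (Submodule.subset_span.trans subset_closure), fun h => ⟨h.span.closure⟩⟩

theorem sep_of {z : H →L[ℂ] H} {W : Set (StrongDual ℂ A)} (hW : IsSeparable W)
    (h : ∀ a b, vf A (a, z b) ∈ W) : SepPredual A z :=
  sepPredual_iff.2 (hW.mono fun f ⟨a, b, e⟩ => by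
    rw [show f = vf A (a, z b) from ContinuousLinearMap.ext e]
    exact h a b)

theorem wsep_of (h : SepPredual M.toStarSubalgebra 1) : WSep M :=
  wsep_of_isSeparable M (sepPredual_iff.1 h)

/-! ### countably generated algebras -/

/-- the span of a sequence is strongly dense -/
def Cd (M : VonNeumannAlgebra H) : Prop := ∃ t : ℕ → (H →L[ℂ] H), ∀ y ∈ M, ∀ (F : Finset H) (ε : ℝ),
  0 < ε → ∃ a ∈ Submodule.span ℂ (Set.range t), ∀ v ∈ F, ‖y v - a v‖ ≤ ε

theorem cd_of {S : Set (H →L[ℂ] H)} (hS : S.Countable) (h : IsGeneratedBy M S) : Cd M := by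
  have h1 : (S ∪ star S).Countable := hS.union (hS.preimage star_injective)
  have := h1.to_subtype
  obtain ⟨t, ht⟩ := (Set.countable_range fun l : List ↥(S ∪ star S) =>
    (l.map Subtype.val).prod).exists_eq_range ⟨_, [], rfl⟩
  refine ⟨t, fun y hy F ε hε => ?_⟩
  have hc : ∀ s ∈ {c : H →L[ℂ] H | ∀ a ∈ StarAlgebra.adjoin ℂ S, a * c = c * a},
      star s ∈ {c : H →L[ℂ] H | ∀ a ∈ StarAlgebra.adjoin ℂ S, a * c = c * a} := by
    intro s hs a ha
    have := congrArg star (hs (star a) (star_mem ha))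
    simpa only [star_mul, star_star] using this.symm
  have h2 := h.2 (commVN _ hc) fun s hs => mem_commVN.2 fun c hc' =>
    (hc' s (StarAlgebra.subset_adjoin ℂ S hs)).symm
  obtain ⟨a, ha, k⟩ := exists_approx_of_bicomm (StarAlgebra.adjoin ℂ S) (y := y)
    (fun c hc' => (mem_commVN.1 (h2 hy) c hc').symm) F hε
  refine ⟨a, ?_, k⟩
  have h3 : a ∈ Subalgebra.toSubmodule (Algebra.adjoin ℂ (S ∪ star S)) := ha
  rw [Algebra.adjoin_eq_span] at h3
  refine Submodule.span_mono (fun x hx => ?_) h3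
  obtain ⟨l, hl, rfl⟩ := Submonoid.exists_list_of_mem_closure hx
  rw [← ht]
  exact ⟨l.pmap Subtype.mk hl, by simp [List.map_pmap]⟩

theorem Cd.orbit (h : Cd M) (ξ : H) : IsSeparable {w : H | ∃ x ∈ M, w = x ξ} := by
  obtain ⟨t, ht⟩ := h
  refine ((Set.countable_range fun n => t n ξ).isSeparable.span (R := ℂ)).closure.mono ?_
  rintro _ ⟨x, hx, rfl⟩
  refine Metric.mem_closure_iff.2 fun ε hε => ?_
  obtain ⟨a, ha, k⟩ := ht x hx {ξ} (ε / 2) (by positivity)
  refine ⟨a ξ, ?_, ?_⟩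
  · have := Submodule.mem_map_of_mem (f := (ContinuousLinearMap.apply ℂ H ξ).toLinearMap) ha
    rwa [Submodule.map_span, ← Set.range_comp] at this
  · rw [dist_eq_norm]
    exact (k ξ (Finset.mem_singleton_self _)).trans_lt (by linarith)

theorem exists_unit {p : H →L[ℂ] H} (hp : p * p = p) (h0 : p ≠ 0) : ∃ v, ‖v‖ = 1 ∧ p v = v := by
  obtain ⟨u, hu⟩ : ∃ u, p u ≠ 0 := by
    by_contra h
    push Not at h
    exact h0 (ContinuousLinearMap.ext h)
  refine ⟨((‖p u‖⁻¹ : ℝ) : ℂ) • p u, ?_, ?_⟩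
  · rw [norm_smul, Complex.norm_real, norm_inv, norm_norm, inv_mul_cancel₀ (norm_ne_zero_iff.2 hu)]
  · rw [map_smul, show p (p u) = p u from congrArg (fun T : H →L[ℂ] H => T u) hp]

theorem Cd.card (h : Cd M) {P : Set (H →L[ℂ] H)} (hP : Orth M.toStarSubalgebra P) : #P ≤ 𝔠 := by
  classical
  obtain ⟨t, ht⟩ := h
  choose v v1 v2 using fun p : P => exists_unit (hP.1 p p.2).2.1.isIdempotentElem (hP.1 p p.2).2.2
  have inj : Function.Injective fun (p : P) (n : ℕ) => ⟪v p, t n (v p)⟫_ℂ := by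
    intro p q e
    by_contra hne
    have h1 : ∀ a ∈ Submodule.span ℂ (Set.range t), ⟪v p, a (v p)⟫_ℂ = ⟪v q, a (v q)⟫_ℂ := by
      intro a ha
      induction ha using Submodule.span_induction with
      | mem x hx => obtain ⟨n, rfl⟩ := hx; exact congrFun e n
      | zero => simp
      | add x y _ _ a b => simp only [ContinuousLinearMap.add_apply, inner_add_right, a, b]
      | smul c x _ a => simp only [ContinuousLinearMap.smul_apply, inner_smul_right, a]
    obtain ⟨a, ha, k⟩ := ht p (hP.1 p p.2).1 {v p, v q} (1 / 3) (by norm_num)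
    have k1 := k (v p) (by simp)
    have k2 := k (v q) (by simp)
    have h2 : p.1 (v q) = 0 := by
      rw [← v2 q]
      exact congrArg (fun T : H →L[ℂ] H => T (v q)) (hP.2 p.2 q.2 fun e => hne (Subtype.ext e))
    rw [v2] at k1
    rw [h2, zero_sub, norm_neg] at k2
    have h3 : ⟪v p, v p - a (v p)⟫_ℂ + ⟪v q, a (v q)⟫_ℂ = 1 := by
      rw [inner_sub_right, h1 a ha, inner_self_eq_norm_sq_to_K, v1]
      simp
    have h4 := norm_add_le ⟪v p, v p - a (v p)⟫_ℂ ⟪v q, a (v q)⟫_ℂ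
    have h5 := norm_inner_le_norm (𝕜 := ℂ) (v p) (v p - a (v p))
    have h6 := norm_inner_le_norm (𝕜 := ℂ) (v q) (a (v q))
    rw [v1] at h5 h6
    rw [h3, norm_one] at h4
    linarith
  have := Cardinal.lift_mk_le_lift_mk_of_injective inj
  simpa [Cardinal.mk_complex] using this

/-! ### summands with separable predual -/

theorem app_eq {x y : H →L[ℂ] H} (h : x = y) (v : H) : x v = y v := by rw [h]

theorem exists_summand (h : ∀ ξ : H, IsSeparable {w : H | ∃ x ∈ M, w = x ξ}) {z : H →L[ℂ] H}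
    (hz : CP M z) (h0 : z ≠ 0) : ∃ z', CP M z' ∧ z' ≠ 0 ∧ z' * z = z' ∧
      (z' ≠ 0 ∧ SepPredual M.toStarSubalgebra z') := by
  obtain ⟨ξ, x1, x2⟩ := exists_unit hz.idem h0
  obtain ⟨e, e1, -, e3, -, e5, e6⟩ := exists_proj {w : H | ∃ x ∈ M, w = x ξ}
  obtain ⟨p, p1, p2, p3, p4, p5, p6⟩ := exists_proj {v : H | ∃ w ∈ M.commutant, ∃ x ∈ M, v = w (x ξ)}
  have k1 : ∀ y ∈ M, ∀ v ∈ {v : H | ∃ w ∈ M.commutant, ∃ x ∈ M, v = w (x ξ)}, p (y v) = y v := by
    rintro y hy _ ⟨w, hw, x, hx, rfl⟩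
    exact p3 _ ⟨w, hw, y * x, mul_mem hy hx, app_eq (vn_commutes M hy hw) _⟩
  have k2 : ∀ y ∈ M.commutant, ∀ v ∈ {v : H | ∃ w ∈ M.commutant, ∃ x ∈ M, v = w (x ξ)},
      p (y v) = y v := by
    rintro y hy _ ⟨w, hw, x, hx, rfl⟩
    exact p3 _ ⟨y * w, mul_mem hy hw, x, hx, rfl⟩
  have hp : CP M p := ⟨⟨vn_mem_of_commutes M fun y hy => p5 y (k2 y hy) (k2 _ (star_mem hy)),
    p1, p2⟩, fun y hy => p5 y (k1 y hy) (k1 _ (star_mem hy))⟩
  have hp0 : p ≠ 0 := fun k => by
    have := p3 ξ ⟨1, one_mem _, 1, one_mem _, rfl⟩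
    rw [k] at this
    rw [← this] at x1
    simp at x1
  have hpz : (1 - z) * p = 0 := p4 _ (by
    rintro _ ⟨w, hw, x, hx, rfl⟩
    have a1 := app_eq (vn_commutes M hz.mem hw) (x ξ)
    have a2 := app_eq (hz.comm x hx) ξ
    simp only [mul_apply_eq_comp] at a1 a2
    rw [sub_apply, one_apply_eq_self, a1, ← a2, x2, sub_self])
  refine ⟨p, hp, hp0, ?_, hp0, ?_⟩
  · rw [sub_mul, one_mul, sub_eq_zero] at hpz
    rw [← hp.comm z hz.mem, ← hpz]
  have hK := ((h ξ).span (R := ℂ)).closure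
  refine sep_of (((hK.prod hK).image (vf_cont (A := M.toStarSubalgebra))).span (R := ℂ)).closure
    fun a b => vf_mem _ a ?_ (p6 b)
  rintro _ ⟨w, hw, x, hx, rfl⟩
  refine subset_closure (Submodule.subset_span ⟨(e (star w a), x ξ),
    ⟨e6 _, subset_closure (Submodule.subset_span ⟨x, hx, rfl⟩)⟩, ?_⟩)
  refine ContinuousLinearMap.ext fun y => ?_
  have a1 := app_eq (vn_commutes M y.2 hw) (x ξ)
  have a2 := e3 _ ⟨y.1 * x, mul_mem y.2 hx, rfl⟩
  simp only [mul_apply_eq_comp] at a1 a2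
  rw [vf_apply, vf_apply, a1, ← inner_star_left w, ← e1, inner_star_left e, a2]

/-- the algebra `M z + ℂ (1 - z)` -/
theorem exists_cut {z : H →L[ℂ] H} (hz : CP M z) (hs : SepPredual M.toStarSubalgebra z) :
    ∃ Q : VonNeumannAlgebra H, Q ≤ M ∧ (∀ y ∈ M, y * z ∈ Q) ∧ WSep Q := by
  have hp := hz.one_sub
  have hzp : z * (1 - z) = 0 := by rw [mul_sub, mul_one, hz.idem, sub_self]
  have hpz : (1 - z) * z = 0 := by rw [sub_mul, one_mul, hz.idem, sub_self]
  let Q := commVN ((M.commutant : Set (H →L[ℂ] H)) ∪ {s | ∃ m, s = (1 - z) * m * (1 - z)}) (by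
    rintro s (hs | ⟨m, rfl⟩)
    · exact Or.inl (star_mem hs)
    · exact Or.inr ⟨star m, by rw [star_mul, star_mul, hp.sa, mul_assoc]⟩)
  have hQM : Q ≤ M := fun x hx => vn_mem_of_commutes M fun y hy => mem_commVN.1 hx y (Or.inl hy)
  refine ⟨Q, hQM, fun y hy => mem_commVN.2 ?_, wsep_of ?_⟩
  · rintro s (hs | ⟨m, rfl⟩)
    · exact (vn_commutes M (mul_mem hy hz.mem) hs).symm
    · have a1 : (1 - z) * m * (1 - z) * (z * y) = (1 - z) * m * ((1 - z) * z) * y := by
        simp only [mul_assoc]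
      have a2 : y * z * ((1 - z) * m * (1 - z)) = y * (z * (1 - z)) * m * (1 - z) := by
        simp only [mul_assoc]
      rw [a2, hz.comm y hy, a1, hpz, hzp]
      simp only [mul_zero, zero_mul]
  obtain ⟨c, hc⟩ : ∃ c : H, ∀ x ∈ Q, ∀ b, x ((1 - z) b) = ⟪c, x c⟫_ℂ • (1 - z) b := by
    by_cases h0 : 1 - z = 0
    · exact ⟨0, fun x _ b => by simp [h0]⟩
    obtain ⟨c, c1, c2⟩ := exists_unit hp.idem h0
    refine ⟨c, fun x hx b => ?_⟩
    have := app_eq (mem_commVN.1 hx _ (Or.inr ⟨InnerProductSpace.rankOne ℂ b c, rfl⟩)) c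
    simp only [mul_apply_eq_comp, InnerProductSpace.rankOne_apply, map_smul, c2] at this
    rw [inner_self_eq_norm_sq_to_K, c1, ← inner_star_left, hp.sa, c2] at this
    simpa using this.symm
  let j : Q.toStarSubalgebra →L[ℂ] M.toStarSubalgebra :=
    (Subalgebra.toSubmodule Q.toStarSubalgebra.toSubalgebra).subtypeL.codRestrict
      (Subalgebra.toSubmodule M.toStarSubalgebra.toSubalgebra) fun x => hQM x.2
  have hj : Continuous fun f : StrongDual ℂ M.toStarSubalgebra => f ∘L j :=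
    continuous_id.clm_comp continuous_const
  refine sep_of ((((sepPredual_iff.1 hs).image hj).union
    (Set.finite_singleton (vf _ (c, c))).isSeparable).span (R := ℂ)) fun a b => ?_
  have e : vf Q.toStarSubalgebra (a, (1 : H →L[ℂ] H) b) = vf M.toStarSubalgebra (a, z b) ∘L j +
      ⟪a, (1 - z) b⟫_ℂ • vf Q.toStarSubalgebra (c, c) := by
    refine ContinuousLinearMap.ext fun x => ?_
    change ⟪a, x.1 b⟫_ℂ = ⟪a, x.1 (z b)⟫_ℂ + ⟪a, (1 - z) b⟫_ℂ * ⟪c, x.1 c⟫_ℂ
    rw [mul_comm, ← inner_smul_right, ← hc x.1 x.2 b, ← inner_add_right, ← map_add]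
    simp
  rw [e]
  exact add_mem (Submodule.subset_span (Or.inl ⟨_, ⟨a, b, fun _ => rfl⟩, rfl⟩))
    (Submodule.smul_mem _ _ (Submodule.subset_span (Or.inr rfl)))

/-- countably many summands -/
theorem sep_of_countable {Z : Set (H →L[ℂ] H)} (hZ : ∀ z ∈ Z, star z = z ∧ z * z = z)
    (htot : ∀ v : H, (∀ z ∈ Z, z v = 0) → v = 0) (hc : Z.Countable)
    (hs : ∀ z ∈ Z, SepPredual A z) : SepPredual A 1 := by
  obtain ⟨e, hes, hee, he1, -, -, he4⟩ := exists_proj {v : H | ∃ z ∈ Z, z v = v}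
  have hev : ∀ v, e v = v := by
    intro v
    rw [← sub_eq_zero]
    refine htot _ fun z hz => ?_
    have hez : e * z = z := by
      ext v
      exact he1 _ ⟨z, hz, app_eq (hZ z hz).2 v⟩
    have h1 := congrArg star hez
    rw [star_mul, hes, (hZ z hz).1] at h1
    rw [map_sub, show z (e v) = z v from app_eq h1 v, sub_self]
  have := hc.to_subtype
  refine sep_of ((IsSeparable.iUnion fun z : Z => sepPredual_iff.1 (hs z z.2)).span
    (R := ℂ)).closure fun a b => vf_mem _ a ?_ (hev b ▸ he4 b)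
  rintro v ⟨z, hz, k⟩
  exact subset_closure (Submodule.subset_span (Set.mem_iUnion.2 ⟨⟨z, hz⟩, a, v, fun x => by
    rw [vf_apply, k]⟩))

end Vale.Agent.N085
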