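import Vale.Agent.N085.A

/-! Gluing at most continuum many singly generated summands. -/

set_option linter.all false

open scoped InnerProductSpace Topology Cardinal
open Filter TopologicalSpace

namespace Vale.Agent.N085

open Vale.Agent.P085 Vale.Agent.P085Z Vale.Agent.P085Z.Inf

universe u

variable {H : Type u} [NormedAddCommGroup H] [InnerProductSpace ℂ H] [CompleteSpace H]
variable {M : VonNeumannAlgebra H}

/-- generation by two self-adjoint elements -/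
def Two (M : VonNeumannAlgebra H) (a b : H →L[ℂ] H) : Prop :=
  a ∈ M ∧ b ∈ M ∧ star a = a ∧ star b = b ∧ ∀ N : VonNeumannAlgebra H, a ∈ N → b ∈ N → M ≤ N

theorem exists_contr {a : H →L[ℂ] H} (ha : star a = a) : ∃ b : H →L[ℂ] H, star b = b ∧ ‖b‖ ≤ 1 ∧
    ∀ N : VonNeumannAlgebra H, a ∈ N ↔ b ∈ N := by
  have h0 : 0 < ‖a‖ + 1 := by positivity
  refine ⟨(((‖a‖ + 1)⁻¹ : ℝ) : ℂ) • a, star_real_smul _ ha, ?_, fun N =>
    ⟨vn_smul_mem N _, fun h => ?_⟩⟩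
  · rw [norm_smul, Complex.norm_real, Real.norm_of_nonneg (by positivity), inv_mul_le_iff₀ h0]
    linarith
  · have := vn_smul_mem N ((‖a‖ + 1 : ℝ) : ℂ) h
    rwa [smul_smul, ← Complex.ofReal_mul, mul_inv_cancel₀ h0.ne', Complex.ofReal_one,
      one_smul] at this

theorem two_of_singly (h : IsSinglyGenerated M) : ∃ a b, Two M a b ∧ ‖a‖ ≤ 1 ∧ ‖b‖ ≤ 1 := by
  obtain ⟨x, hx, h⟩ := h
  have hx : x ∈ M := hx rfl
  obtain ⟨u, v, hu, hv, e, eu, ev⟩ := re_im x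
  obtain ⟨a, a1, a2, a3⟩ := exists_contr hu
  obtain ⟨b, b1, b2, b3⟩ := exists_contr hv
  refine ⟨a, b, ⟨(a3 M).1 (eu ▸ vn_smul_mem M _ (add_mem hx (star_mem hx))),
    (b3 M).1 (ev ▸ vn_smul_mem M _ (sub_mem (star_mem hx) hx)), a1, b1, fun N ha hb => ?_⟩, a2, b2⟩
  refine h N ?_
  rintro _ rfl
  rw [e]
  exact add_mem ((a3 N).2 ha) (vn_smul_mem N _ ((b3 N).2 hb))

/-- a self-adjoint contraction generates the same algebra as a sequence of projections -/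
theorem proj_seq {a : H →L[ℂ] H} (ha : star a = a) (h1 : ‖a‖ ≤ 1) :
    ∃ p : ℕ → (H →L[ℂ] H), (∀ n, star (p n) = p n ∧ p n * p n = p n) ∧
      ∀ N : VonNeumannAlgebra H, a ∈ N ↔ ∀ n, p n ∈ N := by
  have k1 := H551.sc_add_nonneg ha h1
  have k2 := H551.sc_sub_nonneg ha h1
  have hb0 : 0 ≤ ((2⁻¹ : ℝ) : ℂ) • (H551.sc H 1 + a) := smul_nonneg' (by norm_num) k1
  have hb1 : ((2⁻¹ : ℝ) : ℂ) • (H551.sc H 1 + a) ≤ 1 := by
    rw [← sub_nonneg]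
    have e : 1 - ((2⁻¹ : ℝ) : ℂ) • (H551.sc H 1 + a) = ((2⁻¹ : ℝ) : ℂ) • (H551.sc H 1 - a) := by
      rw [H551.sc]
      push_cast
      module
    rw [e]
    exact smul_nonneg' (by norm_num) k2
  obtain ⟨p, hp, hs⟩ := exists_binary hb0 hb1
  refine ⟨p, fun n => ⟨(hp n).1, (hp n).2.1⟩, fun N => ⟨fun h n => (hp n).2.2.1 N
    (vn_smul_mem N _ (add_mem (H551.sc_mem N 1) h)), fun h => ?_⟩⟩
  have := sub_mem (vn_smul_mem N 2 (hasSum_mem N hs fun n => vn_smul_mem N _ (h n))) (one_mem N)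
  have e : (2 : ℂ) • ((2⁻¹ : ℝ) : ℂ) • (H551.sc H 1 + a) - 1 = a := by
    rw [H551.sc]
    push_cast
    module
  rwa [e] at this

/-- two commuting self-adjoint contractions are coded by one self-adjoint element -/
theorem exists_join {a c : H →L[ℂ] H} (ha : star a = a) (hc : star c = c) (a1 : ‖a‖ ≤ 1)
    (c1 : ‖c‖ ≤ 1) (h : a * c = c * a) : ∃ x : H →L[ℂ] H, star x = x ∧
      ∀ N : VonNeumannAlgebra H, x ∈ N ↔ a ∈ N ∧ c ∈ N := by
  let B : Set (H →L[ℂ] H) := {a, c}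
  have hB : ∀ x ∈ B, star x = x := by
    rintro _ (rfl | rfl) <;> assumption
  have hC : ∀ x ∈ B, ∀ y ∈ B, x * y = y * x := by
    rintro _ (rfl | rfl) _ (rfl | rfl)
    exacts [rfl, h, h.symm, rfl]
  have h1 : ∀ y ∈ genVN B, y ∈ starComm B := by
    intro y hy x hx
    have h2 : x ∈ starComm B := fun s hs' => by
      rw [hB s hs']; exact ⟨hC x hx s hs', hC x hx s hs'⟩
    rw [hB x hx]
    exact ⟨(mem_genVN.1 hy x h2).symm, (mem_genVN.1 hy x h2).symm⟩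
  have hA : ∀ x ∈ genVN B, ∀ y ∈ genVN B, x * y = y * x :=
    fun x hx y hy => mem_genVN.1 hy x (h1 x hx)
  obtain ⟨p, p1, p2⟩ := proj_seq ha a1
  obtain ⟨q, q1, q2⟩ := proj_seq hc c1
  obtain ⟨x, hx, hxs, hN⟩ := exists_code (genVN B) hA
    (fun n => if n.unpair.1 = 0 then p n.unpair.2 else q n.unpair.2) fun n => by
      split_ifs
      · exact ⟨(p2 _).1 (subset_genVN B (Or.inl rfl)) _, (p1 _).1, (p1 _).2⟩
      · exact ⟨(q2 _).1 (subset_genVN B (Or.inr rfl)) _, (q1 _).1, (q1 _).2⟩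
  refine ⟨x, hxs, fun N => ⟨fun k => ⟨(p2 N).2 fun n => ?_, (q2 N).2 fun n => ?_⟩,
    fun k => genVN_le (by rintro _ (rfl | rfl); exacts [k.1, k.2]) hx⟩⟩
  · simpa using hN N k (Nat.pair 0 n)
  · simpa using hN N k (Nat.pair 1 n)

theorem eq_of_total {Z : Set (H →L[ℂ] H)} (htot : ∀ v : H, (∀ z ∈ Z, z v = 0) → v = 0)
    {x y : H →L[ℂ] H} (h : ∀ z ∈ Z, z * x = z * y) : x = y := by
  ext v
  rw [← sub_eq_zero]
  exact htot _ fun z hz => by rw [map_sub]; exact sub_eq_zero.2 (app_eq (h z hz) v)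

/-- **gluing** -/
theorem two_of_sum {Z : Set (H →L[ℂ] H)} (hZ : ∀ z ∈ Z, CP M z)
    (horth : Z.Pairwise fun a b => a * b = 0) (htot : ∀ v : H, (∀ z ∈ Z, z v = 0) → v = 0)
    (hc : #Z ≤ 𝔠) (hs : ∀ z ∈ Z, SepPredual M.toStarSubalgebra z) : ∃ a b, Two M a b := by
  choose Q Q1 Q2 Q3 using fun z : Z => exists_cut (hZ z z.2) (hs z z.2)
  choose a b ab a1 b1 using fun z : Z => two_of_singly (isSinglyGenerated_of_wsep (Q3 z))
  obtain ⟨t⟩ : Nonempty (Z ↪ Set.Icc (0 : ℝ) 1) := Cardinal.lift_mk_le'.1 (by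
    rw [Cardinal.mk_Icc_real zero_lt_one]
    simpa using hc)
  obtain ⟨x, x1, x2, x3, x4⟩ := exists_glued M Z hZ horth a
    fun z => ⟨Q1 z (ab z).1, (ab z).2.2.1, a1 z⟩
  obtain ⟨y, y1, y2, -, y4⟩ := exists_glued M Z hZ horth b
    fun z => ⟨Q1 z (ab z).2.1, (ab z).2.2.2.1, b1 z⟩
  obtain ⟨c, c1, c2, c3, c4⟩ := exists_glued M Z hZ horth (fun z => (((t z).1 : ℝ) : ℂ) • 1)
    fun z => ⟨vn_smul_mem M _ (one_mem M), star_real_smul _ (star_one _), by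
      rw [norm_smul, Complex.norm_real, Real.norm_of_nonneg (t z).2.1]
      exact mul_le_one₀ (t z).2.2 (norm_nonneg _) ContinuousLinearMap.norm_id_le⟩
  simp only [smul_mul_assoc, one_mul] at c4
  have c5 : ∀ z : Z, z * c = (((t z).1 : ℝ) : ℂ) • z.1 := fun z => by
    rw [← (hZ z z.2).comm c c1, c4]
  obtain ⟨w, w1, w2⟩ := exists_join x2 c2 x3 c3 (eq_of_total htot fun z hz => by
    rw [← mul_assoc, ← (hZ z hz).comm x x1, mul_assoc, c5 ⟨z, hz⟩, ← mul_assoc, c5 ⟨z, hz⟩,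
      mul_smul_comm, smul_mul_assoc, (hZ z hz).comm x x1])
  refine ⟨w, y, (w2 M).2 ⟨x1, c1⟩, y1, w1, y2, fun N hw hyN => ?_⟩
  obtain ⟨hxN, hcN⟩ := (w2 N).1 hw
  have hZN : ∀ z : Z, z.1 ∈ N := fun z => by
    have k : ∀ n ∈ N.commutant, n * z = z * n * z := fun n hn => eq_of_total htot fun u hu => by
      by_cases e : u = z
      · rw [e, ← mul_assoc, ← mul_assoc, ← mul_assoc, (hZ z z.2).idem]
      have e1 : u * (c * n) * z = u * (n * c) * z := by rw [vn_commutes N hcN hn]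
      rw [← mul_assoc, c5 ⟨u, hu⟩, mul_assoc, mul_assoc, mul_assoc, c4, smul_mul_assoc,
        mul_smul_comm, mul_smul_comm, ← sub_eq_zero, ← sub_smul, smul_eq_zero] at e1
      rcases e1 with e1 | e1
      · rw [sub_eq_zero, Complex.ofReal_inj] at e1
        exact (e (congrArg Subtype.val (t.injective (Subtype.ext e1)))).elim
      · rw [e1, ← mul_assoc, ← mul_assoc, horth hu z.2 e, zero_mul, zero_mul]
    refine vn_mem_of_commutes N fun n hn => ?_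
    have k2 := congrArg star (k _ (star_mem hn))
    rw [star_mul, star_mul, star_mul, star_star, (hZ z z.2).sa, ← mul_assoc] at k2
    rw [k n hn, ← k2]
  intro s hs
  refine vn_mem_of_commutes N fun n hn => eq_of_total htot fun z hz' => ?_
  have hz := hZ z hz'
  have hzN : z ∈ N := hZN ⟨z, hz'⟩
  have hcut : ∀ c ∈ M, c * z ∈ N → ∀ s ∈ {s | ∃ m ∈ N.commutant, s = m * z}, s * c = c * s := by
    rintro c hc hcz _ ⟨m, hm, rfl⟩
    rw [mul_assoc, ← hz.comm c hc, ← vn_commutes N hcz hm, mul_assoc, vn_commutes N hzN hm]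
  have hst : ∀ s ∈ {s | ∃ m ∈ N.commutant, s = m * z},
      star s ∈ {s | ∃ m ∈ N.commutant, s = m * z} := by
    rintro _ ⟨m, hm, rfl⟩
    exact ⟨star m, star_mem hm, by rw [star_mul, hz.sa, vn_commutes N hzN (star_mem hm)]⟩
  have h1 := (ab ⟨z, hz'⟩).2.2.2.2 (commVN _ hst)
    (mem_commVN.2 (hcut _ (Q1 _ (ab _).1) (x4 ⟨z, hz'⟩ ▸ mul_mem hxN hzN)))
    (mem_commVN.2 (hcut _ (Q1 _ (ab _).2.1) (y4 ⟨z, hz'⟩ ▸ mul_mem hyN hzN))) (Q2 ⟨z, hz'⟩ s hs)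
  have h2 := mem_commVN.1 h1 (n * z) ⟨n, hn, rfl⟩
  have hzn := vn_commutes N hzN hn
  have e1 : n * z * (s * z) = z * (n * s) := by
    rw [hz.comm s hs, mul_assoc, ← mul_assoc z, hz.idem, ← mul_assoc, ← hzn, mul_assoc]
  have e2 : s * z * (n * z) = z * (s * n) := by
    rw [← hzn, mul_assoc, ← mul_assoc z, hz.idem, ← mul_assoc, hz.comm s hs, mul_assoc]
  rw [← e1, ← e2]
  exact h2

/-! ### the statements for weakly closed subalgebras -/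

variable {A : StarSubalgebra ℂ (H →L[ℂ] H)}

theorem gen_iff (hA : IsVN A) {S : Set (H →L[ℂ] H)} : Gen A S ↔ IsGeneratedBy (ofClosed A hA.1) S :=
  ⟨fun h => ⟨h.1, fun N k => h.2 N.toStarSubalgebra ⟨isClosed_wot_mem N⟩ k⟩,
    fun h => ⟨h.1, fun N hN k => h.2 (ofClosed N hN.1) k⟩⟩

theorem gen_two (hA : IsVN A) {a b : H →L[ℂ] H} (h : Two (ofClosed A hA.1) a b) :
    IsSelfAdjoint a ∧ IsSelfAdjoint b ∧ Gen A {a, b} :=
  ⟨h.2.2.1, h.2.2.2.1, (gen_iff hA).2 ⟨by rintro _ (rfl | rfl); exacts [h.1, h.2.1],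
    fun N k => h.2.2.2.2 N (k (Or.inl rfl)) (k (Or.inr rfl))⟩⟩

theorem cp_of (hA : IsVN A) {Z : Set (H →L[ℂ] H)} (h : Orth A Z) (c : ∀ z ∈ Z, Comm A z) :
    ∀ z ∈ Z, CP (ofClosed A hA.1) z := fun z hz =>
  ⟨⟨(h.1 z hz).1, (h.1 z hz).2.1.isSelfAdjoint, (h.1 z hz).2.1.isIdempotentElem⟩, (c z hz).1⟩

theorem tfae (hA : IsVN A) : List.TFAE [∃ x, Gen A {x},
    ∃ a b, IsSelfAdjoint a ∧ IsSelfAdjoint b ∧ Gen A {a, b},
    ∃ S : Set (H →L[ℂ] H), S.Countable ∧ Gen A S,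
    ∃ Z, Orth A Z ∧ (∀ ξ : H, (∀ z ∈ Z, z ξ = 0) → ξ = 0) ∧ #Z ≤ 𝔠 ∧
      ∀ z ∈ Z, Comm A z ∧ SepPredual A z,
    (∀ ξ : H, IsSeparable {η : H | ∃ x ∈ A, η = x ξ}) ∧ ∀ P, Orth A P → #P ≤ 𝔠] := by
  tfae_have 1 → 3 := fun ⟨x, h⟩ => ⟨_, Set.countable_singleton x, h⟩
  tfae_have 3 → 5 := fun ⟨S, hS, h⟩ =>
    have c := cd_of hS ((gen_iff hA).1 h)
    ⟨c.orbit, fun P => c.card⟩
  tfae_have 5 → 4 := fun ⟨h, k⟩ => by
    obtain ⟨Z, a, b, c⟩ := exists_total (ofClosed A hA.1) _ fun z hz h0 => exists_summand h hz h0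
    have o : Orth A Z := ⟨fun z hz => ⟨(a z hz).1.mem, ⟨(a z hz).1.idem, (a z hz).1.sa⟩,
      (a z hz).2.1⟩, b⟩
    exact ⟨Z, o, c, k Z o, fun z hz => ⟨⟨(a z hz).1.comm⟩, (a z hz).2.2⟩⟩
  tfae_have 4 → 2 := fun ⟨Z, a, b, c, d⟩ => by
    obtain ⟨x, y, h⟩ := two_of_sum (cp_of hA a fun z hz => (d z hz).1) a.2 b c
      fun z hz => (d z hz).2
    exact ⟨x, y, gen_two hA h⟩
  tfae_have 2 → 1 := fun ⟨a, b, ha, hb, h⟩ => by
    have h := (gen_iff hA).1 h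
    obtain ⟨x, k⟩ := isSinglyGenerated_of_pair _ (h.1 (Or.inl rfl)) (h.1 (Or.inr rfl)) ha hb
      fun N p q => h.2 N (by rintro _ (rfl | rfl); exacts [p, q])
    exact ⟨x, (gen_iff hA).2 k⟩
  tfae_finish

theorem singly_of_wsep (hA : IsVN A) (h : WSep (ofClosed A hA.1)) : ∃ x, Gen A {x} :=
  (isSinglyGenerated_of_wsep h).imp fun _ k => (gen_iff hA).2 k

theorem q1 (hA : IsVN A) (h : SeparableSpace H ∨ SepPredual A 1) : (∃ x, Gen A {x}) ∧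
    ∃ a b, IsSelfAdjoint a ∧ IsSelfAdjoint b ∧ Gen A {a, b} :=
  have k := singly_of_wsep hA (h.elim (fun _ => wsep_of_separable _) fun h => wsep_of h)
  ⟨k, ((tfae hA).out 0 1).1 k⟩

theorem mono (hA : IsVN A) (h : ∃ x, Gen A {x}) (N : StarSubalgebra ℂ (H →L[ℂ] H)) (hN : IsVN N)
    (le : N ≤ A) : ∃ y, Gen N {y} := by
  obtain ⟨a, b⟩ := ((tfae hA).out 0 4).1 h
  have k : (∀ ξ : H, IsSeparable {η : H | ∃ x ∈ N, η = x ξ}) ∧ ∀ P, Orth N P → #P ≤ 𝔠 :=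
    ⟨fun ξ => (a ξ).mono fun _ ⟨x, hx, e⟩ => ⟨x, le hx, e⟩, fun P o =>
      b P ⟨fun p hp => ⟨le (o.1 p hp).1, (o.1 p hp).2⟩, o.2⟩⟩
  exact ((tfae hN).out 4 0).1 k

theorem sep_iff (hA : IsVN A) : SepPredual A 1 ↔ (∃ x, Gen A {x}) ∧
    ∀ Z, Orth A Z → (∀ z ∈ Z, Comm A z) → Z.Countable := by
  refine ⟨fun h => ⟨(q1 hA (.inr h)).1, fun Z o _ => (wsep_of (M := ofClosed A hA.1) h).countable Z
    (fun v hv => ⟨(o.1 v hv).1, norm_pj_le (o.1 v hv).2.1.isSelfAdjoint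
      (o.1 v hv).2.1.isIdempotentElem⟩) fun v hv w hw e => ?_⟩, fun ⟨h, k⟩ => ?_⟩
  · exact (congrArg (· * w) (o.1 v hv).2.1.isSelfAdjoint.star_eq).trans (o.2 hv hw e)
  obtain ⟨Z, a, b, -, d⟩ := ((tfae hA).out 0 3).1 h
  exact sep_of_countable (fun z hz => ⟨(a.1 z hz).2.1.isSelfAdjoint, (a.1 z hz).2.1.isIdempotentElem⟩)
    b (k Z a fun z hz => (d z hz).1) fun z hz => (d z hz).2

theorem factor_iff (hA : IsVN A) (h : ∀ z ∈ A, Comm A z → ∃ c : ℂ, z = c • 1) :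
    (∃ x, Gen A {x}) ↔ SepPredual A 1 := by
  refine ⟨fun k => (sep_iff hA).2 ⟨k, fun Z o c => Set.Subsingleton.countable fun z hz w hw => ?_⟩,
    fun k => ((sep_iff hA).1 k).1⟩
  by_contra e
  have k := o.2 hz hw e
  obtain ⟨s, rfl⟩ := h z (o.1 z hz).1 (c z hz)
  simp only [smul_mul_assoc, one_mul, smul_eq_zero] at k
  rcases k with rfl | k
  · exact (o.1 _ hz).2.2 (zero_smul _ _)
  · exact (o.1 w hw).2.2 k

end Vale.Agent.N085
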