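import Mathlib.Analysis.InnerProductSpace.WeakOperatorTopology
import Mathlib.Analysis.InnerProductSpace.Adjoint
import Mathlib.Analysis.CStarAlgebra.Classes
import Mathlib.SetTheory.Cardinal.Continuum

/-!
# P085: von Neumann algebras on arbitrary Hilbert spaces and their generators
-/

open scoped InnerProductSpace

namespace Vale.Agent.N085

variable {H : Type*} [NormedAddCommGroup H] [InnerProductSpace ℂ H] [CompleteSpace H]

/-- A von Neumann algebra on `H`: a unital star subalgebra of `B(H)` that is closed in the weak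
operator topology. -/
structure IsVN (M : StarSubalgebra ℂ (H →L[ℂ] H)) : Prop where
  closed : IsClosed {T : H →WOT[ℂ] H | T.toCLM ∈ M}

/-- `M = W*(S)`: `M` contains `S` and lies in every von Neumann algebra that contains `S`. -/
structure Gen (M : StarSubalgebra ℂ (H →L[ℂ] H)) (S : Set (H →L[ℂ] H)) : Prop where
  sub : ∀ x ∈ S, x ∈ M
  least : ∀ N : StarSubalgebra ℂ (H →L[ℂ] H), IsVN N → (∀ x ∈ S, x ∈ N) → M ≤ N

/-- The predual of `M z` (for `z = 1` the predual of `M`) is norm separable. It is the norm closure,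
in the dual space of `M`, of the span of the vector functionals `x ↦ ⟪ξ, x z η⟫`. -/
structure SepPredual (M : StarSubalgebra ℂ (H →L[ℂ] H)) (z : H →L[ℂ] H) : Prop where
  sep : TopologicalSpace.IsSeparable (closure (Submodule.span ℂ
    {f : StrongDual ℂ M | ∃ ξ η : H, ∀ x : M, f x = ⟪ξ, (x : H →L[ℂ] H) (z η)⟫_ℂ} :
      Set (StrongDual ℂ M)))

/-- `P` is a family of pairwise orthogonal nonzero projections of `M`. -/
structure Orth (M : StarSubalgebra ℂ (H →L[ℂ] H)) (P : Set (H →L[ℂ] H)) : Prop where
  proj : ∀ p ∈ P, p ∈ M ∧ IsStarProjection p ∧ p ≠ 0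
  orth : P.Pairwise fun p q => p * q = 0

/-- `z` commutes with every element of `M`. -/
structure Comm (M : StarSubalgebra ℂ (H →L[ℂ] H)) (z : H →L[ℂ] H) : Prop where
  comm : ∀ y ∈ M, y * z = z * y

end Vale.Agent.N085
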