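import Vale.Agent.N085.B

open scoped Cardinal
open TopologicalSpace

namespace Vale.Agent.N085.OldA0Countable

open Vale.Agent.N085

/-- The classification of the singly generated von Neumann algebras on arbitrary Hilbert
spaces. -/
theorem classification {H : Type*} [NormedAddCommGroup H] [InnerProductSpace ℂ H] [CompleteSpace H]
    (M : StarSubalgebra ℂ (H →L[ℂ] H)) (hM : IsVN M) :
    List.TFAE [∃ x, Gen M {x},
      ∃ S : Set (H →L[ℂ] H), S.Countable ∧ Gen M S,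
      ∃ Z, Orth M Z ∧ (∀ ξ : H, (∀ z ∈ Z, z ξ = 0) → ξ = 0) ∧ #Z ≤ 𝔠 ∧
        ∀ z ∈ Z, Comm M z ∧ SepPredual M z,
      (∀ ξ : H, IsSeparable {η : H | ∃ x ∈ M, η = x ξ}) ∧ ∀ P, Orth M P → #P ≤ 𝔠] ∧
    ((∃ x, Gen M {x}) → ∀ N, IsVN N → N ≤ M → ∃ y, Gen N {y}) ∧
    ((∃ x, Gen M {x}) → (∀ Z, Orth M Z → (∀ z ∈ Z, Comm M z) → Z.Countable) →
      SepPredual M 1) := by
  refine ⟨?_, mono hM, fun h1 h2 => (sep_iff hM).2 ⟨h1, h2⟩⟩
  have h := tfae hM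
  tfae_have 1 ↔ 2 := h.out 0 2
  tfae_have 1 ↔ 3 := h.out 0 3
  tfae_have 1 ↔ 4 := h.out 0 4
  tfae_finish

end Vale.Agent.N085.OldA0Countable
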